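import Vale.Agent.P141.H223.Birth

/-!
# P141, line (A), D2: births, operator form

Dyadic tree as in `H223.births`.  One birth at a cell with Gram matrix `G`: `E' = E + P`, `P` the
spectral projection of `R = (1 - E) G (1 - E)` above `w`.  Then `w E' + (1 - E') G (1 - E')` is at
most `w E + (1 - E) G (1 - E)` AS A MATRIX, so on a tree the mean over the cells of one scale of
`w E + (1 - E) G (1 - E)` is at most the Gram matrix of the top cell.
-/

namespace Vale.Agent.P141.H478

open Matrix hiding diag_sub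
open Finset
open Vale.Agent.P141.H223 (Pj exists_spec diag_mul diag_transpose diag_sub diag_one diag_psd)

noncomputable section

variable {ι : Type*} [Fintype ι] [DecidableEq ι]

/-- One birth at a cell: `E` before, `E'` after. -/
structure Bth (w : ℝ) (G E E' : Matrix ι ι ℝ) : Prop where
  pj : Pj E'
  mul : E' * E = E
  mul' : E * E' = E
  /-- the residual after the birth -/
  res : (w • (1 : Matrix ι ι ℝ) - (1 - E') * G * (1 - E')).PosSemidef
  /-- the residual drops by at least `w` times the new projection -/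
  drop : ((1 - E) * G * (1 - E) - (1 - E') * G * (1 - E') - w • (E' - E)).PosSemidef
  /-- the new directions are uncorrelated with the residual -/
  orth : (E' - E) * G * (1 - E') = 0

/-- **One birth, operator form.** -/
theorem birth_stepV {w : ℝ} (hw : 0 < w) {G E : Matrix ι ι ℝ} (hG : G.PosSemidef) (hE : Pj E) :
    ∃ E' : Matrix ι ι ℝ, Bth w G E E' := by
  classical
  have hC := hE.compl
  have hR : ((1 - E) * G * (1 - E)).PosSemidef := by
    have h1 := hG.mul_mul_conjTranspose_same (1 - E)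
    rwa [conjTranspose_eq_transpose_of_trivial, hC.tr] at h1
  obtain ⟨U, d, hU1, hU2, hd, hRe⟩ := exists_spec hR
  set R := (1 - E) * G * (1 - E) with hRdef
  set p : ι → ℝ := fun i => if w < d i then 1 else 0 with hp
  set q : ι → ℝ := fun i => if w < d i then (d i)⁻¹ else 0 with hq
  set P := U * diagonal p * Uᵀ with hP
  set S := U * diagonal q * Uᵀ with hS
  have hPP : P * P = P := by
    rw [hP, diag_mul hU1]
    congr 3
    funext i
    simp only [hp]
    split_ifs <;> norm_num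
  have hPt : Pᵀ = P := diag_transpose U p
  have hPR : P = R * S := by
    rw [hP, hRe, hS, diag_mul hU1]
    congr 3
    funext i
    simp only [hp, hq]
    split_ifs with h
    · rw [mul_inv_cancel₀ (hw.trans h).ne']
    · rw [mul_zero]
  have hPR' : P = S * R := by
    rw [hP, hRe, hS, diag_mul hU1]
    congr 3
    funext i
    simp only [hp, hq]
    split_ifs with h
    · rw [inv_mul_cancel₀ (hw.trans h).ne']
    · rw [zero_mul]
  have hE1 : E * (1 - E) = 0 := by rw [Matrix.mul_sub, Matrix.mul_one, hE.sq, sub_self]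
  have h1E : (1 - E) * E = 0 := by rw [Matrix.sub_mul, Matrix.one_mul, hE.sq, sub_self]
  have hER : E * R = 0 := by
    rw [hRdef, ← Matrix.mul_assoc, ← Matrix.mul_assoc, hE1, Matrix.zero_mul, Matrix.zero_mul]
  have hRE : R * E = 0 := by
    rw [hRdef, Matrix.mul_assoc, h1E, Matrix.mul_zero]
  have hEP : E * P = 0 := by rw [hPR, ← Matrix.mul_assoc, hER, Matrix.zero_mul]
  have hPE : P * E = 0 := by rw [hPR', Matrix.mul_assoc, hRE, Matrix.mul_zero]
  have hE' : Pj (E + P) := by
    refine ⟨by rw [transpose_add, hE.tr, hPt], ?_⟩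
    rw [Matrix.mul_add, Matrix.add_mul, Matrix.add_mul, hE.sq, hPP, hEP, hPE]
    abel
  have hfac : 1 - (E + P) = (1 - E) * (1 - P) := by
    simp only [Matrix.mul_sub, Matrix.sub_mul, Matrix.mul_one, Matrix.one_mul, hEP]
    abel
  have hfac' : 1 - (E + P) = (1 - P) * (1 - E) := by
    simp only [Matrix.mul_sub, Matrix.sub_mul, Matrix.mul_one, Matrix.one_mul, hPE]
    abel
  have h1P : 1 - P = U * diagonal (fun i => 1 - p i) * Uᵀ := by
    have h1 := diag_one hU2 1
    rw [one_smul] at h1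
    rw [hP]
    conv_lhs => rw [h1]
    rw [diag_sub]
  have hres : (1 - (E + P)) * G * (1 - (E + P)) =
      U * diagonal (fun i => (1 - p i) * d i * (1 - p i)) * Uᵀ := by
    have h1 : (1 - (E + P)) * G * (1 - (E + P)) = (1 - P) * R * (1 - P) := by
      calc (1 - (E + P)) * G * (1 - (E + P))
          = ((1 - P) * (1 - E)) * G * ((1 - E) * (1 - P)) := by
            rw [← hfac', ← hfac]
        _ = _ := by rw [hRdef]; simp only [Matrix.mul_assoc]
    rw [h1, h1P, hRe, diag_mul hU1, diag_mul hU1]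
  have hwP : w • P = U * diagonal (fun i => w * p i) * Uᵀ := by
    rw [hP, ← Matrix.smul_mul, ← Matrix.mul_smul]
    congr 2
    ext i j
    by_cases hij : i = j
    · subst hij; simp
    · simp [hij]
  refine ⟨E + P, hE', by rw [Matrix.add_mul, hE.sq, hPE, add_zero],
    by rw [Matrix.mul_add, hE.sq, hEP, add_zero], ?_, ?_, ?_⟩
  · rw [hres, diag_one hU2 w, diag_sub]
    refine diag_psd fun i => ?_
    simp only [hp]
    split_ifs with h
    · simp [hw.le]
    · push Not at h
      simp only [sub_zero, one_mul, mul_one]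
      linarith
  · change (R - (1 - (E + P)) * G * (1 - (E + P)) - w • (E + P - E)).PosSemidef
    rw [add_sub_cancel_left, hres, hwP, hRe, diag_sub, diag_sub]
    refine diag_psd fun i => ?_
    simp only [hp]
    split_ifs with h
    · simp only [sub_self, zero_mul, mul_one, sub_zero]
      linarith
    · simp
  · rw [add_sub_cancel_left]
    have h1 : P * G * (1 - (E + P)) = P * R * (1 - P) := by
      have h2 : P * (1 - E) = P := by rw [Matrix.mul_sub, Matrix.mul_one, hPE, sub_zero]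
      calc P * G * (1 - (E + P)) = (P * (1 - E)) * G * ((1 - E) * (1 - P)) := by
            rw [h2, ← hfac]
        _ = _ := by rw [hRdef]; simp only [Matrix.mul_assoc]
    rw [h1, h1P, hRe, hP, diag_mul hU1, diag_mul hU1]
    have h3 : (fun i => p i * d i * (1 - p i)) = fun _ => 0 := by
      funext i
      simp only [hp]
      split_ifs <;> simp
    rw [h3]
    have h4 : (diagonal fun _ : ι => (0 : ℝ)) = 0 := by
      ext i j; by_cases hij : i = j <;> simp [hij]
    rw [h4, Matrix.mul_zero, Matrix.zero_mul]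

namespace Bth

variable {w : ℝ} {G E E' : Matrix ι ι ℝ}

/-- the new projection `E' - E` is a projection -/
theorem pj_sub (h : Bth w G E E') (hE : Pj E) : Pj (E' - E) := by
  refine ⟨by rw [transpose_sub, h.pj.tr, hE.tr], ?_⟩
  rw [Matrix.mul_sub, Matrix.sub_mul, Matrix.sub_mul, h.pj.sq, h.mul, h.mul', hE.sq]
  abel

/-- trace form: `H223.births`' potential -/
theorem tr_le (h : Bth w G E E') (hE : Pj E) :
    w * E'.trace + ((1 - E') * G).trace ≤ w * E.trace + ((1 - E) * G).trace := by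
  have htrG : ∀ F : Matrix ι ι ℝ, Pj F → (F * G).trace = (F * G * F).trace := by
    intro F hF
    rw [trace_mul_comm (F * G) F, ← Matrix.mul_assoc, hF.sq]
  have h1 := h.drop.trace_nonneg
  rw [trace_sub, trace_sub, trace_smul, trace_sub, smul_eq_mul, ← htrG _ hE.compl,
    ← htrG _ h.pj.compl] at h1
  linarith

/-- the residual only drops -/
theorem res_le (h : Bth w G E E') (hw : 0 < w) (hE : Pj E) :
    ((1 - E) * G * (1 - E) - (1 - E') * G * (1 - E')).PosSemidef := by
  have h1 := h.drop.add ((h.pj_sub hE).posSemidef.smul hw.le)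
  rwa [sub_add_cancel] at h1

end Bth

/-! ### The tree -/

/-- the projection after the births at one cell -/
def nxV (w : ℝ) (G E : Matrix ι ι ℝ) : Matrix ι ι ℝ :=
  open Classical in
  if h : 0 < w ∧ G.PosSemidef ∧ Pj E then (birth_stepV h.1 h.2.1 h.2.2).choose else E

theorem nxV_spec {w : ℝ} (hw : 0 < w) {G E : Matrix ι ι ℝ} (hG : G.PosSemidef) (hE : Pj E) :
    Bth w G E (nxV w G E) := by
  unfold nxV
  rw [dif_pos ⟨hw, hG, hE⟩]
  exact (birth_stepV hw hG hE).choose_spec

/-- the projection at depth `j` below the scale `n` -/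
def EV (w : ℝ) (n : ℕ) (G : ℕ → ℤ → Matrix ι ι ℝ) : ℕ → ℤ → Matrix ι ι ℝ
  | 0, m => nxV w (G n m) 0
  | (j + 1), m => nxV w (G (n - (j + 1)) m) (EV w n G j (m / 2))

theorem EV_pj {w : ℝ} (hw : 0 < w) {n : ℕ} {G : ℕ → ℤ → Matrix ι ι ℝ}
    (hG : ∀ k ≤ n, ∀ m, (G k m).PosSemidef) (j : ℕ) (m : ℤ) : Pj (EV w n G j m) := by
  induction j generalizing m with
  | zero => exact (nxV_spec hw (hG n le_rfl m) Pj.zero).pj
  | succ j ih => exact (nxV_spec hw (hG _ (Nat.sub_le _ _) m) (ih (m / 2))).pj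

/-- the operator potential of the births -/
def potV (w : ℝ) (G E : Matrix ι ι ℝ) : Matrix ι ι ℝ := w • E + (1 - E) * G * (1 - E)

theorem potV_zero (w : ℝ) (G : Matrix ι ι ℝ) : potV w G 0 = G := by simp [potV]

theorem potV_psd {w : ℝ} (hw : 0 ≤ w) {G E : Matrix ι ι ℝ} (hG : G.PosSemidef) (hE : Pj E) :
    (potV w G E).PosSemidef := by
  have h1 := hG.mul_mul_conjTranspose_same (1 - E)
  rw [conjTranspose_eq_transpose_of_trivial, hE.compl.tr] at h1
  exact (hE.posSemidef.smul hw).add h1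

theorem Bth.potV_le {w : ℝ} {G E E' : Matrix ι ι ℝ} (h : Bth w G E E') :
    (potV w G E - potV w G E').PosSemidef := by
  have h1 := h.drop
  convert h1 using 1
  unfold potV
  rw [smul_sub]
  abel

theorem potV_mean (w : ℝ) (G₀ G₁ E : Matrix ι ι ℝ) :
    potV w ((1 / 2 : ℝ) • (G₀ + G₁)) E = (1 / 2 : ℝ) • (potV w G₀ E + potV w G₁ E) := by
  unfold potV
  rw [Matrix.mul_smul, Matrix.smul_mul, Matrix.mul_add, Matrix.add_mul]
  module

/-- the cells of the scale `k` below a cell, one scale at a time -/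
theorem sum_Ico_double {β : Type*} [AddCommMonoid β] (f : ℤ → β) (j : ℕ) (m : ℤ) :
    ∑ i ∈ Ico ((2 : ℤ) ^ (j + 1) * m) (2 ^ (j + 1) * m + 2 ^ (j + 1)), f i =
      ∑ i ∈ Ico ((2 : ℤ) ^ j * m) (2 ^ j * m + 2 ^ j), (f (2 * i) + f (2 * i + 1)) := by
  have hI : Ico ((2 : ℤ) ^ (j + 1) * m) (2 ^ (j + 1) * m + 2 ^ (j + 1)) =
      (Ico ((2 : ℤ) ^ j * m) (2 ^ j * m + 2 ^ j)).biUnion fun i => {2 * i, 2 * i + 1} := by
    have e0 : (2 : ℤ) ^ (j + 1) * m = 2 * (2 ^ j * m) := by rw [pow_succ]; ring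
    have e0' : (2 : ℤ) ^ (j + 1) = 2 * 2 ^ j := by rw [pow_succ]; ring
    rw [e0, e0']
    generalize (2 : ℤ) ^ j * m = a
    generalize (2 : ℤ) ^ j = b
    ext y
    simp only [mem_Ico, mem_biUnion, mem_insert, mem_singleton]
    constructor
    · rintro ⟨h1, h2⟩
      refine ⟨y / 2, ⟨by omega, by omega⟩, by omega⟩
    · rintro ⟨i, ⟨h1, h2⟩, h3⟩
      constructor <;> omega
  have hdis : ∀ a ∈ Ico ((2 : ℤ) ^ j * m) (2 ^ j * m + 2 ^ j),
      ∀ b ∈ Ico ((2 : ℤ) ^ j * m) (2 ^ j * m + 2 ^ j), a ≠ b →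
      Disjoint ({2 * a, 2 * a + 1} : Finset ℤ) {2 * b, 2 * b + 1} := by
    intro a _ b _ hab
    rw [disjoint_left]
    intro y h1 h2
    simp only [mem_insert, mem_singleton] at h1 h2
    omega
  rw [hI, sum_biUnion hdis]
  exact sum_congr rfl fun i _ => sum_pair (by omega)

/-- **Births on a finite dyadic tree, operator form.** -/
theorem birthsV {w : ℝ} (hw : 0 < w) (n : ℕ) (G : ℕ → ℤ → Matrix ι ι ℝ)
    (hG : ∀ k ≤ n, ∀ m, (G k m).PosSemidef)
    (hmean : ∀ k < n, ∀ m, G (k + 1) m = (1 / 2 : ℝ) • (G k (2 * m) + G k (2 * m + 1))) :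
    ∃ E : ℕ → ℤ → Matrix ι ι ℝ,
      (∀ k ≤ n, ∀ m, Pj (E k m)) ∧
      (∀ m, Bth w (G n m) 0 (E n m)) ∧
      (∀ k < n, ∀ m, Bth w (G k m) (E (k + 1) (m / 2)) (E k m)) ∧
      (∀ l ≤ n, ∀ j ≤ l, ∀ m, ((2 : ℝ) ^ j • potV w (G l m) (E l m) -
        ∑ i ∈ Ico (2 ^ j * m) (2 ^ j * m + 2 ^ j),
          potV w (G (l - j) i) (E (l - j) i)).PosSemidef) := by
  set E : ℕ → ℤ → Matrix ι ι ℝ := fun k m => EV w n G (n - k) m with hE
  have hpj : ∀ k m, Pj (E k m) := fun k m => EV_pj hw hG _ m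
  have hstep : ∀ k < n, ∀ m, E k m = nxV w (G k m) (E (k + 1) (m / 2)) := by
    intro k hk m
    obtain ⟨j, hj⟩ : ∃ j, n - k = j + 1 := ⟨n - k - 1, by omega⟩
    have h1 : n - (k + 1) = j := by omega
    have h2 : n - (j + 1) = k := by omega
    show EV w n G (n - k) m = nxV w (G k m) (EV w n G (n - (k + 1)) (m / 2))
    rw [hj, h1, EV, h2]
  have htop : ∀ m, E n m = nxV w (G n m) 0 := by
    intro m
    show EV w n G (n - n) m = _
    rw [Nat.sub_self, EV]
  have hB : ∀ k < n, ∀ m, Bth w (G k m) (E (k + 1) (m / 2)) (E k m) := by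
    intro k hk m
    rw [hstep k hk m]
    exact nxV_spec hw (hG k hk.le m) (hpj _ _)
  refine ⟨E, fun k _ m => hpj k m, fun m => ?_, hB, ?_⟩
  · rw [htop m]
    exact nxV_spec hw (hG n le_rfl m) Pj.zero
  · intro l hl j
    induction j with
    | zero =>
      intro _ m
      have h1 : Ico m (m + 1) = {m} := by ext y; simp only [mem_Ico, mem_singleton]; omega
      simpa [h1] using PosSemidef.zero
    | succ j ih =>
      intro hj m
      have ih' := ih (by omega) m
      rw [sum_Ico_double]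
      set k := l - (j + 1) with hk
      have hk1 : l - j = k + 1 := by omega
      have hkn : k < n := by omega
      rw [hk1] at ih'
      have hterm : ∀ i : ℤ, ((2 : ℝ) • potV w (G (k + 1) i) (E (k + 1) i) -
          (potV w (G k (2 * i)) (E k (2 * i)) +
            potV w (G k (2 * i + 1)) (E k (2 * i + 1)))).PosSemidef := by
        intro i
        have h1 := (hB k hkn (2 * i)).potV_le
        have h2 := (hB k hkn (2 * i + 1)).potV_le
        have e1 : 2 * i / 2 = i := by omega
        have e2 : (2 * i + 1) / 2 = i := by omega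
        rw [e1] at h1
        rw [e2] at h2
        have h3 := h1.add h2
        convert h3 using 1
        rw [hmean k hkn i, potV_mean]
        module
      have hsum : (∑ i ∈ Ico ((2 : ℤ) ^ j * m) (2 ^ j * m + 2 ^ j),
          ((2 : ℝ) • potV w (G (k + 1) i) (E (k + 1) i) -
          (potV w (G k (2 * i)) (E k (2 * i)) +
            potV w (G k (2 * i + 1)) (E k (2 * i + 1))))).PosSemidef :=
        posSemidef_sum _ fun i _ => hterm i
      have h4 := (ih'.smul (show (0 : ℝ) ≤ 2 by norm_num)).add hsum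
      convert h4 using 1
      rw [sum_sub_distrib, ← smul_sum, pow_succ]
      module

/-! ### Forms -/

omit [DecidableEq ι] in
theorem form_nonneg {K : Matrix ι ι ℝ} (hK : K.PosSemidef) (x : ι → ℝ) : 0 ≤ x ⬝ᵥ K *ᵥ x := by
  simpa using hK.dotProduct_mulVec_nonneg x

omit [DecidableEq ι] in
theorem form_sum {X : Type*} (s : Finset X) (M : X → Matrix ι ι ℝ) (u : ι → ℝ) :
    u ⬝ᵥ (∑ i ∈ s, M i) *ᵥ u = ∑ i ∈ s, u ⬝ᵥ M i *ᵥ u := by
  classical
  induction s using Finset.induction_on with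
  | empty => simp
  | insert a s ha ih => rw [sum_insert ha, sum_insert ha, add_mulVec, dotProduct_add, ih]

omit [DecidableEq ι] in
theorem form_smul (c : ℝ) (M : Matrix ι ι ℝ) (u : ι → ℝ) :
    u ⬝ᵥ (c • M) *ᵥ u = c * (u ⬝ᵥ M *ᵥ u) := by
  rw [smul_mulVec, dotProduct_smul, smul_eq_mul]

/-- **The mean over the cells of one scale, for every vector**: births and residual together. -/
theorem mean_form_le {w : ℝ} {l j : ℕ} {G E : ℕ → ℤ → Matrix ι ι ℝ} {m : ℤ}
    (h : ((2 : ℝ) ^ j • potV w (G l m) (E l m) -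
        ∑ i ∈ Ico (2 ^ j * m) (2 ^ j * m + 2 ^ j),
          potV w (G (l - j) i) (E (l - j) i)).PosSemidef) (u : ι → ℝ) :
    (2 ^ j : ℝ)⁻¹ * ∑ i ∈ Ico (2 ^ j * m) (2 ^ j * m + 2 ^ j),
      (w * (u ⬝ᵥ E (l - j) i *ᵥ u) +
        u ⬝ᵥ ((1 - E (l - j) i) * G (l - j) i * (1 - E (l - j) i)) *ᵥ u) ≤
      u ⬝ᵥ potV w (G l m) (E l m) *ᵥ u := by
  have h1 := form_nonneg h u
  rw [sub_mulVec, dotProduct_sub, form_smul, form_sum] at h1
  have h2 : ∀ i, u ⬝ᵥ potV w (G (l - j) i) (E (l - j) i) *ᵥ u =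
      w * (u ⬝ᵥ E (l - j) i *ᵥ u) +
        u ⬝ᵥ ((1 - E (l - j) i) * G (l - j) i * (1 - E (l - j) i)) *ᵥ u := by
    intro i
    rw [potV, add_mulVec, dotProduct_add, form_smul]
  simp only [h2] at h1
  rw [inv_mul_eq_div, div_le_iff₀ (by positivity)]
  linarith

end

end Vale.Agent.P141.H478
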